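import Vale.Agent.P202.Lambda.Small

/-!
# Normalised length of a base change

If every level is free of rank `c ^ n` and a retract of `B`, the base change of a finite module is
exactly as long as the module.
-/

open scoped ENNReal TensorProduct

namespace Vale.Agent.P202.Lambda

variable {A₀ B : Type*} [CommRing A₀] [CommRing B] [Algebra A₀ B]
variable {A : ℕ → Subalgebra A₀ B} {c : ℕ}
variable {M : Type*} [AddCommGroup M] [Module A₀ M] [Module B M] [IsScalarTower A₀ B M]

/-- Lower bound from long levels. -/
theorem le_lam_of_le_length (h : IsTower A c) (S : Finset M) {L : ℕ∞}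
    (hS : ∀ n, (c ^ n : ℕ) * L ≤ Module.length A₀ (lev A n S)) : (L : ℝ≥0∞) ≤ lam A c M := by
  refine le_trans (le_iInf fun n => ?_) (le_iSup (fun S : Finset M => ⨅ n, rat A c n S) S)
  rw [rat, ENNReal.le_div_iff_mul_le
    (Or.inl (pow_ne_zero _ (by exact_mod_cast h.pos.ne')))
    (Or.inl (ENNReal.pow_ne_top (ENNReal.natCast_ne_top c)))]
  refine le_trans (le_of_eq ?_) (ENat.toENNReal_mono (hS n))
  rw [ENat.toENNReal_mul, ENat.toENNReal_coe, Nat.cast_pow, mul_comm]

/-- Base change preserves length. -/
theorem lam_baseChange (h : IsTower A c) (hU : ∀ b, ∃ n, b ∈ A n)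
    [Nontrivial A₀] [∀ n, Module.Free A₀ (A n)] [∀ n, Module.Finite A₀ (A n)]
    (hrank : ∀ n, Module.finrank A₀ (A n) = c ^ n)
    (ρ : ∀ n, B →ₗ[A₀] A n) (hρ : ∀ n (a : A n), ρ n a = a)
    (N : Type*) [AddCommGroup N] [Module A₀ N] [Module.Finite A₀ N] :
    lam A c (B ⊗[A₀] N) = (Module.length A₀ N : ℝ≥0∞) := by
  classical
  refine le_antisymm (lam_le_length h hU (TensorProduct.mk A₀ B N 1) ?_) ?_
  · rw [eq_top_iff]
    rintro x -
    induction x using TensorProduct.induction_on with
    | zero => exact zero_mem _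
    | tmul b y =>
      rw [show b ⊗ₜ[A₀] y = b • ((1 : B) ⊗ₜ[A₀] y) by rw [TensorProduct.smul_tmul', smul_eq_mul, mul_one]]
      exact Submodule.smul_mem _ b (Submodule.subset_span ⟨y, rfl⟩)
    | add x y hx hy => exact add_mem hx hy
  · obtain ⟨g, hg⟩ := Module.Finite.fg_top (R := A₀) (M := N)
    refine le_lam_of_le_length h (g.image fun y => (1 : B) ⊗ₜ[A₀] y) fun n => ?_
    set j : A n ⊗[A₀] N →ₗ[A₀] B ⊗[A₀] N := (A n).val.toLinearMap.rTensor N
    have hj : Function.Injective j := by
      refine Function.LeftInverse.injective (g := (ρ n).rTensor N) fun x => ?_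
      show ((ρ n).rTensor N ∘ₗ j) x = x
      rw [← LinearMap.rTensor_comp, show ρ n ∘ₗ (A n).val.toLinearMap = LinearMap.id from
        LinearMap.ext (hρ n), LinearMap.rTensor_id, LinearMap.id_apply]
    have hle : LinearMap.range j ≤ lev A n (g.image fun y => (1 : B) ⊗ₜ[A₀] y) := by
      rintro _ ⟨x, rfl⟩
      induction x using TensorProduct.induction_on with
      | zero => rw [map_zero]; exact zero_mem _
      | add x y hx hy => rw [map_add]; exact add_mem hx hy
      | tmul a y =>
        have hy : y ∈ Submodule.span A₀ (g : Set N) := hg ▸ Submodule.mem_top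
        induction hy using Submodule.span_induction with
        | mem y hy =>
          rw [show j (a ⊗ₜ[A₀] y) = (a : B) • ((1 : B) ⊗ₜ[A₀] y) by
            rw [TensorProduct.smul_tmul', smul_eq_mul, mul_one]; rfl]
          exact smul_mem_lev (Finset.mem_image_of_mem _ hy) a.2
        | zero => simp
        | add y z _ _ hy hz => rw [TensorProduct.tmul_add, map_add]; exact add_mem hy hz
        | smul r y _ hy => rw [TensorProduct.tmul_smul, map_smul]; exact Submodule.smul_mem _ r hy
    calc ((c ^ n : ℕ) : ℕ∞) * Module.length A₀ N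
        = Module.length A₀ (A n ⊗[A₀] N) := by
          rw [((TensorProduct.congr (Module.finBasisOfFinrankEq A₀ (A n) (hrank n)).equivFun
            (LinearEquiv.refl A₀ N)).trans ((TensorProduct.comm A₀ _ N).trans
              (TensorProduct.piScalarRight A₀ A₀ N (Fin (c ^ n))))).length_eq,
            Module.length_pi_of_fintype]
          simp
      _ = Module.length A₀ (LinearMap.range j) := (LinearEquiv.ofInjective j hj).length_eq
      _ ≤ _ := length_mono hle

end Vale.Agent.P202.Lambda
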