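import Mathlib

/-!
# Normalised length along a tower

`A n` is an increasing sequence of subalgebras of `B`, each step generated by `c` elements.
For a `B`-module `M`, `lam M` is the supremum over finite subsets `S` of the infimum over `n` of
`length (A n • S) / c ^ n`, lengths taken over the bottom ring. It is additive on short exact
sequences, with no finiteness assumption on the modules.
-/

open scoped ENNReal Pointwise

namespace Vale.Agent.P202.Lambda

variable {A₀ B : Type*} [CommRing A₀] [CommRing B] [Algebra A₀ B]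

/-- An increasing tower starting at the bottom ring, each step generated by at most `c` elements. -/
structure IsTower (A : ℕ → Subalgebra A₀ B) (c : ℕ) : Prop where
  pos : 0 < c
  zero : A 0 = ⊥
  mono : ∀ n, A n ≤ A (n + 1)
  gen : ∀ n, ∃ G : Finset B, G.card ≤ c ∧ (G : Set B) ⊆ A (n + 1) ∧
    Subalgebra.toSubmodule (A (n + 1)) ≤
      Submodule.span A₀ (G : Set B) * Subalgebra.toSubmodule (A n)

variable {M : Type*} [AddCommGroup M] [Module A₀ M] [Module B M] [IsScalarTower A₀ B M]

/-- Multiplication of a fixed vector by ring elements. -/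
def act (A₀ : Type*) {B M : Type*} [CommRing A₀] [CommRing B] [Algebra A₀ B] [AddCommGroup M]
    [Module A₀ M] [Module B M] [IsScalarTower A₀ B M] (s : M) : B →ₗ[A₀] M :=
  (LinearMap.toSpanSingleton B M s).restrictScalars A₀

@[simp] theorem act_apply (s : M) (b : B) : act A₀ s b = b • s := rfl

/-- The `A n`-span of a finite set, over the bottom ring. -/
def lev (A : ℕ → Subalgebra A₀ B) (n : ℕ) (S : Finset M) : Submodule A₀ M :=
  ⨆ s ∈ S, (Subalgebra.toSubmodule (A n)).map (act A₀ s)

/-- Normalised length of the level `n`. -/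
noncomputable def rat (A : ℕ → Subalgebra A₀ B) (c n : ℕ) (S : Finset M) : ℝ≥0∞ :=
  (Module.length A₀ (lev A n S) : ℝ≥0∞) / (c : ℝ≥0∞) ^ n

/-- Normalised length. -/
noncomputable def lam (A : ℕ → Subalgebra A₀ B) (c : ℕ) (M : Type*) [AddCommGroup M]
    [Module A₀ M] [Module B M] [IsScalarTower A₀ B M] : ℝ≥0∞ :=
  ⨆ S : Finset M, ⨅ n, rat A c n S

variable {A : ℕ → Subalgebra A₀ B} {c : ℕ}

section Length

variable {N P : Type*} [AddCommGroup N] [Module A₀ N] [AddCommGroup P] [Module A₀ P]

theorem length_mono {X Y : Submodule A₀ N} (h : X ≤ Y) :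
    Module.length A₀ X ≤ Module.length A₀ Y :=
  Module.length_le_of_injective (Submodule.inclusion h) (Submodule.inclusion_injective h)

/-- A submodule is as long as its image plus its part in the kernel. -/
theorem length_eq_map_add (f : N →ₗ[A₀] P) (X : Submodule A₀ N) :
    Module.length A₀ X = Module.length A₀ ↥(X ⊓ LinearMap.ker f) + Module.length A₀ (X.map f) := by
  refine Module.length_eq_add_of_exact (Submodule.inclusion inf_le_left) (f.submoduleMap X)
    (Submodule.inclusion_injective _) (f.submoduleMap_surjective X) ?_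
  rw [LinearMap.exact_iff]
  ext x
  simp [Submodule.range_inclusion, Subtype.ext_iff]

theorem length_sup_le (X Y : Submodule A₀ N) :
    Module.length A₀ ↥(X ⊔ Y) ≤ Module.length A₀ X + Module.length A₀ Y := by
  rw [length_eq_map_add X.mkQ (X ⊔ Y)]
  refine add_le_add (length_mono (by simp)) ?_
  rw [Submodule.map_sup, (Submodule.map X.mkQ X).eq_bot_iff.2 (by rintro _ ⟨x, hx, rfl⟩; simpa using hx), bot_sup_eq]
  exact Module.length_le_of_surjective _ (X.mkQ.submoduleMap_surjective Y)

theorem length_biSup_le {ι : Type*} (s : Finset ι) (X : ι → Submodule A₀ N) :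
    Module.length A₀ ↥(⨆ i ∈ s, X i) ≤ ∑ i ∈ s, Module.length A₀ (X i) := by
  classical
  induction s using Finset.induction_on with
  | empty =>
    rw [show (⨆ i ∈ (∅ : Finset ι), X i) = ⊥ by simp, Module.length_bot]
    exact zero_le
  | insert i s hi ih =>
    rw [Finset.sum_insert hi, Finset.iSup_insert]
    exact (length_sup_le _ _).trans (add_le_add le_rfl ih)

end Length

variable {M' : Type*} [AddCommGroup M'] [Module A₀ M'] [Module B M'] [IsScalarTower A₀ B M']

theorem smul_mem_lev {n : ℕ} {S : Finset M} {s : M} (hs : s ∈ S) {a : B} (ha : a ∈ A n) :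
    a • s ∈ lev A n S :=
  le_biSup (fun s => (Subalgebra.toSubmodule (A n)).map (act A₀ s)) hs ⟨a, ha, rfl⟩

theorem subset_lev {n : ℕ} {S : Finset M} : (S : Set M) ⊆ lev A n S := fun s hs => by
  simpa using smul_mem_lev (A := A) (n := n) (S := S) hs (one_mem (A n))

theorem lev_le_iff {n : ℕ} {S : Finset M} {X : Submodule A₀ M} :
    lev A n S ≤ X ↔ ∀ s ∈ S, ∀ a ∈ A n, a • s ∈ X := by
  refine ⟨fun h s hs a ha => h (smul_mem_lev hs ha), fun h => iSup₂_le fun s hs => ?_⟩
  rintro _ ⟨a, ha, rfl⟩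
  exact h s hs a ha

theorem lev_mono {n : ℕ} {S S' : Finset M} (h : S ⊆ S') : lev A n S ≤ lev A n S' :=
  lev_le_iff.2 fun _ hs _ ha => smul_mem_lev (h hs) ha

theorem smul_lev {n : ℕ} {S : Finset M} {a : B} (ha : a ∈ A n) {x : M} (hx : x ∈ lev A n S) :
    a • x ∈ lev A n S := by
  have : lev A n S ≤ (lev A n S).comap (Algebra.lsmul A₀ A₀ M a) :=
    lev_le_iff.2 fun s hs b hb => by
      show a • b • s ∈ lev A n S
      rw [smul_smul]
      exact smul_mem_lev hs (mul_mem ha hb)
  exact this hx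

theorem map_lev [DecidableEq M'] (f : M →ₗ[B] M') (n : ℕ) (S : Finset M) :
    (lev A n S).map (f.restrictScalars A₀) = lev A n (S.image f) := by
  refine le_antisymm (Submodule.map_le_iff_le_comap.2 (lev_le_iff.2 fun s hs a ha => ?_))
    (lev_le_iff.2 fun s hs a ha => ?_)
  · show f (a • s) ∈ lev A n (S.image f)
    rw [map_smul]
    exact smul_mem_lev (Finset.mem_image_of_mem f hs) ha
  · obtain ⟨t, ht, rfl⟩ := Finset.mem_image.1 hs
    exact ⟨a • t, smul_mem_lev ht ha, map_smul f a t⟩

theorem lev_fg [IsNoetherianRing A₀] (h : IsTower A c) (n : ℕ) (S : Finset M) :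
    (lev A n S).FG := by
  have hA : ∀ k, (Subalgebra.toSubmodule (A k)).FG := by
    intro k
    induction k with
    | zero =>
      rw [h.zero, Algebra.toSubmodule_bot, Submodule.one_eq_span]
      exact Submodule.fg_span_singleton _
    | succ k ih =>
      obtain ⟨G, -, -, hG⟩ := h.gen k
      have hfg := (Submodule.fg_span G.finite_toSet).mul (R := A₀) ih
      have := isNoetherian_of_fg_of_noetherian _ hfg
      exact isNoetherian_submodule.1 this _ hG
  exact Submodule.fg_biSup S _ fun s _ => (hA n).map _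

theorem IsTower.le (h : IsTower A c) {n m : ℕ} (hnm : n ≤ m) : A n ≤ A m :=
  monotone_nat_of_le_succ h.mono hnm

theorem IsTower.gen_le (h : IsTower A c) (n : ℕ) : ∀ m, n ≤ m →
    ∃ G : Finset B, G.card ≤ c ^ (m - n) ∧ (G : Set B) ⊆ A m ∧
      Subalgebra.toSubmodule (A m) ≤
        Submodule.span A₀ (G : Set B) * Subalgebra.toSubmodule (A n) := by
  classical
  refine Nat.le_induction ⟨{1}, by simp, by simp [one_mem], ?_⟩ fun m hm ih => ?_
  · simp [← Submodule.one_eq_span]
  obtain ⟨G, hc, hG, hm'⟩ := ih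
  obtain ⟨G', hc', hG', hm''⟩ := h.gen m
  refine ⟨G' * G, ?_, ?_, ?_⟩
  · calc (G' * G).card ≤ G'.card * G.card := Finset.card_mul_le
      _ ≤ c * c ^ (m - n) := Nat.mul_le_mul hc' hc
      _ = c ^ (m + 1 - n) := by rw [Nat.succ_sub hm, pow_succ']
  · rw [Finset.coe_mul]
    rintro _ ⟨a, ha, b, hb, rfl⟩
    exact mul_mem (hG' ha) (h.mono m (hG hb))
  · rw [Finset.coe_mul, ← Submodule.span_mul_span, mul_assoc]
    exact hm''.trans (mul_le_mul' le_rfl hm')

omit [Module B M'] [IsScalarTower A₀ B M'] in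
/-- The main estimate: a deeper level is covered by translates of the level `n`. -/
theorem length_lev_le (h : IsTower A c) {n m : ℕ} (hnm : n ≤ m) (S : Finset M)
    (π : M →ₗ[A₀] M') (Y : Submodule A₀ M)
    (hY : ∀ g ∈ A m, ∀ x ∈ lev A n S, π x = 0 → g • x ∈ Y) :
    Module.length A₀ (lev A m S) ≤
      Module.length A₀ Y + (c ^ (m - n) : ℕ) * Module.length A₀ ((lev A n S).map π) := by
  obtain ⟨G, hc, hG, hm⟩ := h.gen_le n m hnm
  set X := lev A n S
  set f : B → M →ₗ[A₀] M ⧸ Y := fun g => Y.mkQ ∘ₗ Algebra.lsmul A₀ A₀ M g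
  have h1 : (lev A m S).map Y.mkQ ≤ ⨆ g ∈ G, X.map (f g) := by
    rw [Submodule.map_le_iff_le_comap, lev_le_iff]
    intro s hs a ha
    have hle : Submodule.span A₀ (G : Set B) * Subalgebra.toSubmodule (A n) ≤
        (⨆ g ∈ G, X.map (f g)).comap (Y.mkQ ∘ₗ act A₀ s) := by
      rw [← Submodule.span_eq (Subalgebra.toSubmodule (A n)), Submodule.span_mul_span,
        Submodule.span_le]
      rintro _ ⟨g, hg, b, hb, rfl⟩
      refine le_biSup (fun g => X.map (f g)) hg ⟨b • s, smul_mem_lev hs hb, ?_⟩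
      simp [f, smul_smul]
    exact hle (hm ha)
  have h2 : ∀ g ∈ G, Module.length A₀ (X.map (f g)) ≤ Module.length A₀ (X.map π) := by
    intro g hg
    have e1 := length_eq_map_add (f g) X
    have e2 := length_eq_map_add π X
    have hk : X ⊓ LinearMap.ker π ≤ X ⊓ LinearMap.ker (f g) := fun x hx =>
      ⟨hx.1, by simpa [f, Submodule.Quotient.mk_eq_zero] using hY g (hG hg) x hx.1 hx.2⟩
    let q : X.map π →ₗ[A₀] X.map (f g) :=
      (LinearMap.ker (π.submoduleMap X)).liftQ ((f g).submoduleMap X) (fun x hx => by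
        rw [LinearMap.mem_ker] at hx ⊢
        exact Subtype.ext (hk ⟨x.2, congrArg Subtype.val hx⟩).2) ∘ₗ
        ((π.submoduleMap X).quotKerEquivOfSurjective (π.submoduleMap_surjective X)).symm.toLinearMap
    refine Module.length_le_of_surjective q fun y => ?_
    obtain ⟨x, rfl⟩ := (f g).submoduleMap_surjective X y
    exact ⟨π.submoduleMap X x, by simp [q]⟩
  calc Module.length A₀ (lev A m S)
      = Module.length A₀ ↥(lev A m S ⊓ LinearMap.ker Y.mkQ) +
          Module.length A₀ ((lev A m S).map Y.mkQ) := length_eq_map_add _ _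
    _ ≤ Module.length A₀ Y + ∑ g ∈ G, Module.length A₀ (X.map (f g)) := by
        refine add_le_add (length_mono (by simp)) ?_
        exact (length_mono h1).trans (length_biSup_le G _)
    _ ≤ _ := by
        refine add_le_add le_rfl ((Finset.sum_le_card_nsmul G _ _ h2).trans ?_)
        rw [nsmul_eq_mul]
        exact mul_le_mul' (Nat.cast_le.2 hc) le_rfl

theorem div_pow_le {c n m : ℕ} {x y : ℕ∞} (hc : 0 < c) (hnm : n ≤ m)
    (hxy : x ≤ (c ^ (m - n) : ℕ) * y) :
    (x : ℝ≥0∞) / (c : ℝ≥0∞) ^ m ≤ (y : ℝ≥0∞) / (c : ℝ≥0∞) ^ n := by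
  refine (ENNReal.div_le_div_right (ENat.toENNReal_mono hxy) _).trans (le_of_eq ?_)
  obtain ⟨k, rfl⟩ := Nat.exists_eq_add_of_le hnm
  have hc0 : (c : ℝ≥0∞) ^ k ≠ 0 := pow_ne_zero _ (by exact_mod_cast hc.ne')
  rw [Nat.add_sub_cancel_left, ENat.toENNReal_mul, ENat.toENNReal_coe, Nat.cast_pow, pow_add,
    mul_comm _ (y : ℝ≥0∞)]
  exact ENNReal.mul_div_mul_right _ _ hc0 (ENNReal.pow_ne_top (ENNReal.natCast_ne_top c))

theorem rat_antitone (h : IsTower A c) (S : Finset M) : Antitone (rat A c · S) := by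
  intro n m hnm
  have h1 := length_lev_le h hnm S LinearMap.id ⊥ (fun g _ x _ hx => by simp [show x = 0 from hx])
  rw [Submodule.map_id, Module.length_bot, zero_add] at h1
  exact div_pow_le h.pos hnm h1

end Vale.Agent.P202.Lambda
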