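import Vale.Agent.P202.Lambda.Defs

/-!
# Additivity of the normalised length

`lam` is additive on short exact sequences of arbitrary modules, and vanishes on modules killed by
an element-wise small part of the tower.
-/

open scoped ENNReal

namespace Vale.Agent.P202.Lambda

variable {A₀ B : Type*} [CommRing A₀] [CommRing B] [Algebra A₀ B]
variable {A : ℕ → Subalgebra A₀ B} {c : ℕ}
variable {M M' M'' : Type*} [AddCommGroup M] [Module A₀ M] [Module B M] [IsScalarTower A₀ B M]
  [AddCommGroup M'] [Module A₀ M'] [Module B M'] [IsScalarTower A₀ B M']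
  [AddCommGroup M''] [Module A₀ M''] [Module B M''] [IsScalarTower A₀ B M'']

theorem rat_mono {n : ℕ} {S T : Finset M} (h : S ⊆ T) : rat A c n S ≤ rat A c n T :=
  ENNReal.div_le_div_right (ENat.toENNReal_mono (length_mono (lev_mono h))) _

theorem iInf_rat_le (S : Finset M) : ⨅ n, rat A c n S ≤ lam A c M :=
  le_iSup (fun S : Finset M => ⨅ n, rat A c n S) S

theorem lam_add_le (i : M' →ₗ[B] M) (π : M →ₗ[B] M'')
    (hi : Function.Injective i) (hπ : Function.Surjective π)
    (hex : Function.Exact i π) : lam A c M' + lam A c M'' ≤ lam A c M := by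
  classical
  refine ENNReal.iSup_add_iSup_le fun S' S'' => ?_
  set S : Finset M := S'.image i ∪ S''.image (Function.surjInv hπ)
  have key : ∀ n, rat A c n S' + rat A c n S'' ≤ rat A c n S := by
    intro n
    rw [rat, rat, rat, ENNReal.div_add_div_same, ← ENat.toENNReal_add]
    refine ENNReal.div_le_div_right (ENat.toENNReal_mono ?_) _
    rw [length_eq_map_add (π.restrictScalars A₀) (lev A n S)]
    refine add_le_add ?_ ?_
    · rw [length_eq_map_add (i.restrictScalars A₀) (lev A n S'),
        show lev A n S' ⊓ LinearMap.ker (i.restrictScalars A₀) = ⊥ by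
          rw [show LinearMap.ker (i.restrictScalars A₀) = ⊥ from LinearMap.ker_eq_bot.2 hi,
            inf_bot_eq],
        Module.length_bot, zero_add]
      refine length_mono (le_inf ?_ ?_)
      · rw [map_lev]
        exact lev_mono Finset.subset_union_left
      · rintro _ ⟨x, -, rfl⟩
        exact hex.apply_apply_eq_zero x
    · refine length_mono (lev_le_iff.2 fun s hs a ha => ?_)
      refine ⟨a • Function.surjInv hπ s,
        smul_mem_lev (Finset.mem_union_right _ (Finset.mem_image_of_mem _ hs)) ha, ?_⟩
      show π (a • Function.surjInv hπ s) = a • s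
      rw [map_smul, Function.surjInv_eq hπ]
  refine le_trans ?_ (iInf_rat_le S)
  refine le_iInf fun n => le_trans (add_le_add (iInf_le _ n) (iInf_le _ n)) (key n)

theorem lam_le_add [IsNoetherianRing A₀] (h : IsTower A c) (i : M' →ₗ[B] M) (π : M →ₗ[B] M'')
    (hi : Function.Injective i) (hex : Function.Exact i π) :
    lam A c M ≤ lam A c M' + lam A c M'' := by
  classical
  refine iSup_le fun S => ?_
  refine le_trans ?_ (add_le_add le_rfl (iInf_rat_le (S.image π)))
  rw [ENNReal.add_iInf]
  refine le_iInf fun n => ?_
  set i₀ : M' →ₗ[A₀] M := i.restrictScalars A₀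
  set π₀ : M →ₗ[A₀] M'' := π.restrictScalars A₀
  have := isNoetherian_of_fg_of_noetherian _ (lev_fg h n S)
  obtain ⟨T, hT⟩ := isNoetherian_submodule.1 this (lev A n S ⊓ LinearMap.ker π₀) inf_le_left
  have hpre : ∀ t ∈ T, ∃ t' : M', i t' = t := fun t ht => by
    have : t ∈ lev A n S ⊓ LinearMap.ker π₀ := hT ▸ Submodule.subset_span ht
    exact (hex t).1 this.2
  choose! pre hpre using hpre
  set S' : Finset M' := T.image pre
  have step : ∀ m, ⨅ k, rat A c k S ≤ rat A c m S' + rat A c n (S.image π) := by
    intro m
    set m' := max m n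
    refine le_trans (iInf_le _ m') ?_
    refine le_trans ?_ (add_le_add (rat_antitone h S' (le_max_left m n)) le_rfl)
    have hlen := length_lev_le h (le_max_right m n) S π₀ ((lev A m' S').map i₀) (by
      intro g hg x hx hx0
      have hle : lev A n S ⊓ LinearMap.ker π₀ ≤
          ((lev A m' S').map i₀).comap (Algebra.lsmul A₀ A₀ M g) := by
        rw [← hT, Submodule.span_le]
        intro t ht
        exact ⟨g • pre t, smul_mem_lev (Finset.mem_image_of_mem pre ht) hg,
          by simp [i₀, hpre t ht]⟩
      exact hle ⟨hx, hx0⟩)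
    have hY : Module.length A₀ ((lev A m' S').map i₀) = Module.length A₀ (lev A m' S') :=
      ((Submodule.equivMapOfInjective i₀ hi (lev A m' S')).length_eq).symm
    rw [hY, map_lev π n S] at hlen
    refine le_trans (ENNReal.div_le_div_right (ENat.toENNReal_mono hlen) _) ?_
    rw [ENat.toENNReal_add, ENNReal.add_div]
    exact add_le_add le_rfl (div_pow_le h.pos (le_max_right m n) le_rfl)
  calc ⨅ k, rat A c k S ≤ (⨅ m, rat A c m S') + rat A c n (S.image π) := by
        rw [ENNReal.iInf_add]; exact le_iInf step
    _ ≤ _ := add_le_add (iInf_rat_le S') le_rfl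

theorem lam_eq_add [IsNoetherianRing A₀] (h : IsTower A c) (i : M' →ₗ[B] M) (π : M →ₗ[B] M'')
    (hi : Function.Injective i) (hπ : Function.Surjective π) (hex : Function.Exact i π) :
    lam A c M = lam A c M' + lam A c M'' :=
  (lam_le_add h i π hi hex).antisymm (lam_add_le i π hi hπ hex)

theorem lam_le_of_injective (i : M' →ₗ[B] M) (hi : Function.Injective i) :
    lam A c M' ≤ lam A c M := by
  classical
  refine iSup_le fun S => le_trans (le_iInf fun n => (iInf_le _ n).trans ?_) (iInf_rat_le (S.image i))
  rw [rat, rat, ← map_lev]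
  exact ENNReal.div_le_div_right (ENat.toENNReal_mono
    (Submodule.equivMapOfInjective (i.restrictScalars A₀) hi (lev A n S)).length_eq.le) _

theorem lam_le_of_surjective (π : M →ₗ[B] M'') (hπ : Function.Surjective π) :
    lam A c M'' ≤ lam A c M := by
  classical
  refine iSup_le fun S => le_trans (le_iInf fun n => (iInf_le _ n).trans ?_)
    (iInf_rat_le (S.image (Function.surjInv hπ)))
  refine ENNReal.div_le_div_right (ENat.toENNReal_mono ?_) _
  refine le_trans (le_of_eq ?_) (Module.length_le_of_surjective _
    ((π.restrictScalars A₀).submoduleMap_surjective _))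
  rw [map_lev, Finset.image_image, show π ∘ Function.surjInv hπ = id from
    funext (Function.surjInv_eq hπ), Finset.image_id]

theorem lam_congr (e : M ≃ₗ[B] M') : lam A c M = lam A c M' :=
  (lam_le_of_injective e.toLinearMap e.injective).antisymm
    (lam_le_of_injective e.symm.toLinearMap e.symm.injective)

theorem lam_of_subsingleton [Subsingleton M] : lam A c M = 0 := by
  refine le_antisymm (iSup_le fun S => (iInf_le _ 0).trans ?_) zero_le
  rw [rat, Module.length_eq_zero]
  simp

end Vale.Agent.P202.Lambda
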