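import Vale.Agent.P202.Lambda.Exact

/-!
# Normalised length and Frobenius

An additive bijection carrying level `n + 1` of one tower semilinearly to level `n` of another
multiplies the normalised length by `c`; all levels share the residue field of the bottom ring.
-/

open scoped ENNReal

namespace Vale.Agent.P202.Lambda

open IsLocalRing

/-- Same residue field, same length. -/
theorem length_eq_of_residue (A₀ R M : Type*) [CommRing A₀] [CommRing R] [IsLocalRing A₀]
    [IsLocalRing R] [Algebra A₀ R] [IsLocalHom (algebraMap A₀ R)] [AddCommGroup M] [Module A₀ M]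
    [Module R M] [IsScalarTower A₀ R M]
    (hres : Function.Surjective fun a : A₀ => residue R (algebraMap A₀ R a)) :
    Module.length A₀ M = Module.length R M := by
  have hs : Function.Surjective (algebraMap (ResidueField A₀) (ResidueField R)) := fun y => by
    obtain ⟨a, ha⟩ := hres y
    exact ⟨residue A₀ a, by rw [← ha]; rfl⟩
  rw [IsLocalRing.length_restrictScalars A₀ R M,
    Module.length_eq_of_surjective (M := ResidueField R) hs,
    show Module.length (ResidueField R) (ResidueField R) = 1 from Module.length_eq_one _ _,
    mul_one]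

/-- Lengths along a semilinear bijection over a surjective ring map. -/
theorem length_semilinear {R R' X Y : Type*} [CommRing R] [CommRing R'] [AddCommGroup X]
    [Module R X] [AddCommGroup Y] [Module R' Y] (σ : R →+* R') (hσ : Function.Surjective σ)
    (φ : X →+ Y) (hφ : Function.Bijective φ) (hsm : ∀ r x, φ (r • x) = σ r • φ x) :
    Module.length R X = Module.length R' Y := by
  have : RingHomSurjective σ := ⟨hσ⟩
  let f : X →ₛₗ[σ] Y := { φ with map_smul' := hsm }
  rw [Module.length, Module.length, WithBot.unbot_inj,
    Order.krullDim_eq_of_orderIso (Submodule.orderIsoMapComapOfBijective f hφ)]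

/-- Same residue field, same length of submodules. -/
theorem length_submodule_eq_of_residue (A₀ R : Type*) [CommRing A₀] [CommRing R] [IsLocalRing A₀]
    [IsLocalRing R] [Algebra A₀ R] [IsLocalHom (algebraMap A₀ R)] {M : Type*} [AddCommGroup M]
    [Module A₀ M] [Module R M] [IsScalarTower A₀ R M]
    (hres : Function.Surjective fun a : A₀ => residue R (algebraMap A₀ R a))
    (P : Submodule R M) (Q : Submodule A₀ M) (h : (Q : Set M) = P) :
    Module.length A₀ Q = Module.length R P := by
  obtain rfl : Q = P.restrictScalars A₀ := SetLike.coe_injective h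
  rw [((Submodule.restrictScalarsEquiv A₀ R M P).restrictScalars A₀).length_eq]
  exact length_eq_of_residue A₀ R P hres

variable {A₀ B : Type*} [CommRing A₀] [CommRing B] [Algebra A₀ B] {A : ℕ → Subalgebra A₀ B}
variable {A₀' B' : Type*} [CommRing A₀'] [CommRing B'] [Algebra A₀' B']
  {A' : ℕ → Subalgebra A₀' B'} {c : ℕ}
variable {M : Type*} [AddCommGroup M] [Module A₀ M] [Module B M] [IsScalarTower A₀ B M]
variable {N : Type*} [AddCommGroup N] [Module A₀' N] [Module B' N] [IsScalarTower A₀' B' N]

/-- The level `n` as a module over `A n`. -/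
def levSub (A : ℕ → Subalgebra A₀ B) (n : ℕ) (S : Finset M) : Submodule (A n) M where
  carrier := lev A n S
  add_mem' := add_mem
  zero_mem' := zero_mem _
  smul_mem' a _ hx := smul_lev a.2 hx

/-- Transport by a semilinear bijection one level down. -/
theorem lam_semilinear (h : IsTower A c) [IsLocalRing A₀] [IsLocalRing A₀']
    [∀ n, IsLocalRing (A n)] [∀ n, IsLocalRing (A' n)]
    [∀ n, IsLocalHom (algebraMap A₀ (A n))] [∀ n, IsLocalHom (algebraMap A₀' (A' n))]
    (hres : ∀ n, Function.Surjective fun a : A₀ => residue (A n) (algebraMap A₀ (A n) a))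
    (hres' : ∀ n, Function.Surjective fun a : A₀' => residue (A' n) (algebraMap A₀' (A' n) a))
    (σ : ∀ n, A (n + 1) →+* A' n) (hσ : ∀ n, Function.Surjective (σ n)) (φ : M ≃+ N)
    (hφ : ∀ n (a : A (n + 1)) (x : M), φ ((a : B) • x) = (σ n a : B') • φ x) :
    lam A' c N = c * lam A c M := by
  classical
  have key : ∀ n (S : Finset M),
      Module.length A₀ (lev A (n + 1) S) = Module.length A₀' (lev A' n (S.image φ)) := by
    intro n S
    have hmem : ∀ x, φ x ∈ lev A' n (S.image φ) ↔ x ∈ lev A (n + 1) S := by
      have h1 : ∀ x ∈ lev A (n + 1) S, φ x ∈ lev A' n (S.image φ) := by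
        intro x hx
        simp only [lev] at hx
        induction hx using Submodule.iSup_induction' with
        | mem s y hy =>
          induction hy using Submodule.iSup_induction' with
          | mem hs y hy =>
            obtain ⟨a, ha, rfl⟩ := hy
            rw [act_apply, hφ n ⟨a, ha⟩ s]
            exact smul_mem_lev (Finset.mem_image_of_mem φ hs) (σ n ⟨a, ha⟩).2
          | zero => rw [map_zero]; exact zero_mem _
          | add y z _ _ hy hz => rw [map_add]; exact add_mem hy hz
        | zero => rw [map_zero]; exact zero_mem _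
        | add y z _ _ hy hz => rw [map_add]; exact add_mem hy hz
      have h2 : ∀ y ∈ lev A' n (S.image φ), φ.symm y ∈ lev A (n + 1) S := by
        intro y hy
        simp only [lev] at hy
        induction hy using Submodule.iSup_induction' with
        | mem s y hy =>
          induction hy using Submodule.iSup_induction' with
          | mem hs y hy =>
            obtain ⟨b, hb, rfl⟩ := hy
            obtain ⟨a, ha⟩ := hσ n ⟨b, hb⟩
            obtain ⟨t, ht, rfl⟩ := Finset.mem_image.1 hs
            rw [act_apply, show b • φ t = φ ((a : B) • t) by rw [hφ n a t, ha],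
              φ.symm_apply_apply]
            exact smul_mem_lev ht a.2
          | zero => rw [map_zero]; exact zero_mem _
          | add y z _ _ hy hz => rw [map_add]; exact add_mem hy hz
        | zero => rw [map_zero]; exact zero_mem _
        | add y z _ _ hy hz => rw [map_add]; exact add_mem hy hz
      exact fun x => ⟨fun hx => φ.symm_apply_apply x ▸ h2 _ hx, h1 x⟩
    let f : levSub A (n + 1) S →+ levSub A' n (S.image φ) :=
      { toFun := fun x => ⟨φ x.1, (hmem x.1).2 x.2⟩
        map_zero' := Subtype.ext (map_zero φ)
        map_add' := fun _ _ => Subtype.ext (map_add φ _ _) }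
    have hf : Function.Bijective f :=
      ⟨fun x y hxy => Subtype.ext (φ.injective (congrArg Subtype.val hxy)),
        fun y => ⟨⟨φ.symm y.1, (hmem _).1 (by rw [φ.apply_symm_apply]; exact y.2)⟩,
          Subtype.ext (φ.apply_symm_apply _)⟩⟩
    rw [length_submodule_eq_of_residue A₀ (A (n + 1)) (hres _) (levSub A (n + 1) S) _ rfl,
      length_submodule_eq_of_residue A₀' (A' n) (hres' _) (levSub A' n (S.image φ)) _ rfl]
    exact length_semilinear (σ n) (hσ n) f hf fun r x => Subtype.ext (hφ n r x.1)
  have hc0 : (c : ℝ≥0∞) ≠ 0 := by exact_mod_cast h.pos.ne'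
  have hrat : ∀ n (S : Finset M), rat A' c n (S.image φ) = c * rat A c (n + 1) S := by
    intro n S
    rw [rat, rat, key, pow_succ', ← mul_div_assoc,
      ENNReal.mul_div_mul_left _ _ hc0 (ENNReal.natCast_ne_top c)]
  have hinf : ∀ S : Finset M, ⨅ n, rat A' c n (S.image φ) = c * ⨅ n, rat A c n S := by
    intro S
    rw [ENNReal.mul_iInf_of_ne hc0 (ENNReal.natCast_ne_top c)]
    simp only [hrat]
    exact le_antisymm (le_iInf fun n => (iInf_le _ n).trans
      (mul_le_mul_right (rat_antitone h S (Nat.le_succ n)) _)) (le_iInf fun n => iInf_le _ (n + 1))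
  rw [lam, lam, ENNReal.mul_iSup]
  refine le_antisymm (iSup_le fun T => ?_) (iSup_le fun S => ?_)
  · refine le_iSup_of_le (T.image φ.symm) ?_
    rw [← hinf, Finset.image_image, show (φ : M → N) ∘ φ.symm = id from funext φ.apply_symm_apply,
      Finset.image_id]
  · exact le_iSup_of_le (S.image φ) (hinf S).ge

end Vale.Agent.P202.Lambda
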