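import Vale.Agent.P202.Lambda.Small

/-!
# Killed by a root means small

Subquotients of a finite power of `T / J` killed by `b`, where `b ^ P` has a colon bound, have
normalised length at most a `P`-th part.
-/

open scoped ENNReal

namespace Vale.Agent.P202.Lambda

variable {A₀ B : Type*} [CommRing A₀] [CommRing B] [Algebra A₀ B] [IsNoetherianRing A₀]
variable {A : ℕ → Subalgebra A₀ B} {c : ℕ}
variable {M N : Type*} [AddCommGroup M] [Module A₀ M] [Module B M] [IsScalarTower A₀ B M]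
  [AddCommGroup N] [Module A₀ N] [Module B N] [IsScalarTower A₀ B N]

theorem lam_prod (h : IsTower A c) : lam A c (M × N) = lam A c M + lam A c N :=
  lam_eq_add h (LinearMap.inl B M N) (LinearMap.snd B M N) LinearMap.inl_injective
    LinearMap.snd_surjective .inl_snd

theorem lam_pi (h : IsTower A c) (r : ℕ) : lam A c (Fin r → M) = r * lam A c M := by
  induction r with
  | zero => simp [lam_of_subsingleton]
  | succ r ih =>
    rw [← lam_congr (Fin.consLinearEquiv B (fun _ : Fin (r + 1) => M)), lam_prod h, ih]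
    push_cast
    ring

variable {T : Type*} [CommRing T] [Algebra A₀ T] [Algebra B T] [IsScalarTower A₀ B T]

/-- Killed by a `P`-th root means at most a `P`-th part. -/
theorem lam_killed_le (h : IsTower A c) (b : B) (P r : ℕ) (J J' : Ideal T)
    (hfin : lam A c (T ⧸ J') ≠ ⊤)
    (hcolon : ∀ x, algebraMap B T b ^ P * x ∈ J → x ∈ J')
    (Z Y : Submodule B (Fin r → T ⧸ J')) (hb : ∀ z ∈ Z, b • z ∈ Y) :
    (P : ℝ≥0∞) * lam A c (Z ⧸ Y.comap Z.subtype) ≤ r * lam A c (T ⧸ J) := by
  have hM : lam A c (Fin r → T ⧸ J') ≠ ⊤ := by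
    rw [lam_pi h]
    exact ENNReal.mul_ne_top (ENNReal.natCast_ne_top r) hfin
  set Q := Ideal.span {algebraMap B T b} ⊔ J'
  let g : (Fin r → T ⧸ J') →ₗ[B] (Fin r → T ⧸ Q) :=
    LinearMap.pi fun i => (Ideal.Quotient.factorₐ B (le_sup_right : J' ≤ Q)).toLinearMap ∘ₗ
      LinearMap.proj i
  have hg : LinearMap.ker g ≤ LinearMap.range (LinearMap.lsmul B (Fin r → T ⧸ J') b) := by
    intro v hv
    have hv' : ∀ i, ∃ y : T ⧸ J', b • y = v i := by
      intro i
      obtain ⟨x, hx⟩ := Ideal.Quotient.mk_surjective (v i)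
      have h0 : g v i = 0 := by rw [LinearMap.mem_ker.1 hv]; rfl
      have hxQ : x ∈ Q := by
        rw [← Ideal.Quotient.eq_zero_iff_mem, ← h0]
        show _ = Ideal.Quotient.factor (le_sup_right : J' ≤ Q) (v i)
        rw [← hx]
        rfl
      obtain ⟨u, hu, f, hf, rfl⟩ := Submodule.mem_sup.1 hxQ
      obtain ⟨y, rfl⟩ := Ideal.mem_span_singleton.1 hu
      refine ⟨Ideal.Quotient.mk J' y, ?_⟩
      rw [← hx, map_add, Ideal.Quotient.eq_zero_iff_mem.2 hf, add_zero, ← Algebra.smul_def]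
      rfl
    choose y hy using hv'
    exact ⟨y, funext hy⟩
  calc (P : ℝ≥0∞) * lam A c (Z ⧸ Y.comap Z.subtype)
      ≤ (P : ℝ≥0∞) * lam A c (Fin r → T ⧸ Q) := mul_le_mul_right
        ((lam_subquotient_le h hM b Z Y hb).trans (lam_quotient_le_of_ker g hg)) _
    _ = (r : ℝ≥0∞) * ((P : ℝ≥0∞) * lam A c (T ⧸ Q)) := by rw [lam_pi h]; ring
    _ ≤ _ := mul_le_mul_right (lam_root _ P J J' hcolon) _

end Vale.Agent.P202.Lambda
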