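import Vale.Agent.P202.Lambda.Exact

/-!
# Smallness for the normalised length

Upper bound by generators defined at level `0`, vanishing on almost zero modules, torsion against
cotorsion, and the root trick: a `P`-th root kills at most the `P`-th part.
-/

open scoped ENNReal

namespace Vale.Agent.P202.Lambda

variable {A₀ B : Type*} [CommRing A₀] [CommRing B] [Algebra A₀ B]
variable {A : ℕ → Subalgebra A₀ B} {c : ℕ}
variable {M : Type*} [AddCommGroup M] [Module A₀ M] [Module B M] [IsScalarTower A₀ B M]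

/-- Modules generated by the image of a bottom module are at most as long as it. -/
theorem lam_le_length (h : IsTower A c) (hU : ∀ b, ∃ n, b ∈ A n) {N : Type*} [AddCommGroup N]
    [Module A₀ N] (f : N →ₗ[A₀] M) (hf : Submodule.span B (Set.range f) = ⊤) :
    lam A c M ≤ (Module.length A₀ N : ℝ≥0∞) := by
  classical
  have hcov : ∀ x : M, ∃ n, ∃ T : Finset M, (T : Set M) ⊆ Set.range f ∧ x ∈ lev A n T := by
    intro x
    have hx : x ∈ Submodule.span B (Set.range f) := hf ▸ Submodule.mem_top
    induction hx using Submodule.span_induction with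
    | mem y hy => exact ⟨0, {y}, by simpa using hy, subset_lev (by simp)⟩
    | zero => exact ⟨0, ∅, by simp, zero_mem _⟩
    | add y z _ _ hy hz =>
      obtain ⟨n, T, hT, hy⟩ := hy
      obtain ⟨m, U, hU', hz⟩ := hz
      refine ⟨max n m, T ∪ U, by simp [hT, hU'], add_mem ?_ ?_⟩
      · exact lev_le_iff.2 (fun s hs a ha => smul_mem_lev (Finset.mem_union_left _ hs)
          (h.le (le_max_left n m) ha)) hy
      · exact lev_le_iff.2 (fun s hs a ha => smul_mem_lev (Finset.mem_union_right _ hs)
          (h.le (le_max_right n m) ha)) hz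
    | smul b y _ hy =>
      obtain ⟨n, T, hT, hy⟩ := hy
      obtain ⟨m, hb⟩ := hU b
      refine ⟨max n m, T, hT, smul_lev (h.le (le_max_right n m) hb) ?_⟩
      exact lev_le_iff.2 (fun s hs a ha => smul_mem_lev hs (h.le (le_max_left n m) ha)) hy
  choose deg T hT hx using hcov
  refine iSup_le fun S => ?_
  set U := S.biUnion T
  refine (iInf_le _ (S.sup deg)).trans ?_
  have hle : lev A (S.sup deg) S ≤ lev A (S.sup deg) U := lev_le_iff.2 fun s hs a ha =>
    smul_lev ha <| lev_le_iff.2 (fun t ht b hb => smul_mem_lev (Finset.mem_biUnion.2 ⟨s, hs, ht⟩)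
      (h.le (Finset.le_sup hs) hb)) (hx s)
  refine (ENNReal.div_le_div_right (ENat.toENNReal_mono (length_mono hle)) _).trans ?_
  refine (rat_antitone h U (Nat.zero_le _)).trans ?_
  simp only [rat, pow_zero, div_one]
  refine ENat.toENNReal_mono ((length_mono (lev_le_iff.2 fun s hs a ha => ?_)).trans
    (Module.length_le_of_surjective f.rangeRestrict f.surjective_rangeRestrict))
  rw [h.zero, Algebra.mem_bot] at ha
  obtain ⟨a₀, rfl⟩ := ha
  obtain ⟨t, -, hst⟩ := Finset.mem_biUnion.1 hs
  rw [algebraMap_smul]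
  exact Submodule.smul_mem _ a₀ (hT t hst)

/-- Almost zero modules: the tower acts through the bottom ring. -/
theorem lam_eq_zero (hc : 1 < c) (hres : ∀ n, ∀ a ∈ A n, ∃ a₀ : A₀, ∀ x : M, a • x = a₀ • x)
    (hfin : ∀ S : Finset M, Module.length A₀ (Submodule.span A₀ (S : Set M)) ≠ ⊤) :
    lam A c M = 0 := by
  refine le_antisymm (iSup_le fun S => ?_) zero_le
  have hle : ∀ n, rat A c n S ≤
      (Module.length A₀ (Submodule.span A₀ (S : Set M)) : ℝ≥0∞) * ((c : ℝ≥0∞)⁻¹) ^ n := fun n => by
    rw [rat, ← ENNReal.inv_pow, ← div_eq_mul_inv]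
    refine ENNReal.div_le_div_right (ENat.toENNReal_mono (length_mono
      (lev_le_iff.2 fun s hs a ha => ?_))) _
    obtain ⟨a₀, ha₀⟩ := hres n a ha
    rw [ha₀]
    exact Submodule.smul_mem _ _ (Submodule.subset_span hs)
  have hlim := ENNReal.Tendsto.const_mul (ENNReal.tendsto_pow_atTop_nhds_zero_of_lt_one
    (show (c : ℝ≥0∞)⁻¹ < 1 from ENNReal.inv_lt_one.2 (by exact_mod_cast hc)))
    (a := (Module.length A₀ (Submodule.span A₀ (S : Set M)) : ℝ≥0∞))
    (Or.inr (by simpa using hfin S))
  rw [mul_zero] at hlim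
  exact ge_of_tendsto hlim (Filter.Eventually.of_forall fun n => (iInf_le _ n).trans (hle n))

/-- Torsion and cotorsion have the same finite normalised length. -/
theorem lam_ker_smul [IsNoetherianRing A₀] (h : IsTower A c) (hM : lam A c M ≠ ⊤) (b : B) :
    lam A c (LinearMap.ker (LinearMap.lsmul B M b)) =
      lam A c (M ⧸ LinearMap.range (LinearMap.lsmul B M b)) := by
  set μ := LinearMap.lsmul B M b
  have h1 := lam_eq_add h μ.ker.subtype μ.rangeRestrict μ.ker.subtype_injective
    μ.surjective_rangeRestrict (LinearMap.exact_iff.2 (by simp))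
  have h2 := lam_eq_add h μ.range.subtype μ.range.mkQ μ.range.subtype_injective
    μ.range.mkQ_surjective (LinearMap.exact_subtype_mkQ _)
  have hR : lam A c μ.range ≠ ⊤ :=
    ne_top_of_le_ne_top hM (lam_le_of_injective _ μ.range.subtype_injective)
  rw [h1, add_comm] at h2
  exact (ENNReal.add_right_inj hR).1 h2

/-- A subquotient killed by `b` is at most as long as the cotorsion of `b`. -/
theorem lam_subquotient_le [IsNoetherianRing A₀] (h : IsTower A c) (hM : lam A c M ≠ ⊤) (b : B)
    (Z Y : Submodule B M) (hb : ∀ z ∈ Z, b • z ∈ Y) :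
    lam A c (Z ⧸ Y.comap Z.subtype) ≤ lam A c (M ⧸ LinearMap.range (LinearMap.lsmul B M b)) := by
  have hle : LinearMap.range (LinearMap.lsmul B Z b) ≤ Y.comap Z.subtype := by
    rintro _ ⟨z, rfl⟩
    exact hb z z.2
  calc lam A c (Z ⧸ Y.comap Z.subtype)
      ≤ lam A c (Z ⧸ LinearMap.range (LinearMap.lsmul B Z b)) :=
        lam_le_of_surjective (Submodule.factor hle) (Submodule.factor_surjective hle)
    _ = lam A c (LinearMap.ker (LinearMap.lsmul B Z b)) := (lam_ker_smul h
        (ne_top_of_le_ne_top hM (lam_le_of_injective _ Z.subtype_injective)) b).symm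
    _ ≤ lam A c (LinearMap.ker (LinearMap.lsmul B M b)) := by
        refine lam_le_of_injective ((Z.subtype ∘ₗ Submodule.subtype _).codRestrict _ fun z => ?_) ?_
        · have := congrArg Subtype.val (LinearMap.mem_ker.1 z.2)
          exact LinearMap.mem_ker.2 this
        · intro x y hxy
          exact Subtype.ext (Subtype.ext (congrArg Subtype.val hxy :))
    _ = _ := lam_ker_smul h hM b

/-- If a map has kernel inside `I`, the quotient by `I` is at most as long as the target. -/
theorem lam_quotient_le_of_ker {Q : Type*} [AddCommGroup Q] [Module A₀ Q] [Module B Q]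
    [IsScalarTower A₀ B Q] (g : M →ₗ[B] Q) {I : Submodule B M} (hg : LinearMap.ker g ≤ I) :
    lam A c (M ⧸ I) ≤ lam A c Q := by
  refine le_trans ?_ (lam_le_of_injective g.range.subtype g.range.subtype_injective)
  refine lam_le_of_surjective (Submodule.factor hg ∘ₗ g.quotKerEquivRange.symm.toLinearMap) ?_
  exact (Submodule.factor_surjective hg).comp g.quotKerEquivRange.symm.surjective

section Root

variable {T : Type*} [CommRing T] [Algebra A₀ T] [Algebra B T] [IsScalarTower A₀ B T]

/-- The root trick. -/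
theorem lam_root (β : T) (P : ℕ) (J J' : Ideal T)
    (hcolon : ∀ x, β ^ P * x ∈ J → x ∈ J') :
    (P : ℝ≥0∞) * lam A c (T ⧸ (Ideal.span {β} ⊔ J')) ≤ lam A c (T ⧸ J) := by
  suffices H : ∀ j, j ≤ P → (j : ℝ≥0∞) * lam A c (T ⧸ (Ideal.span {β} ⊔ J')) ≤
      lam A c (T ⧸ (Ideal.span {β ^ j} ⊔ J)) from
    (H P le_rfl).trans (lam_le_of_surjective
      (Ideal.Quotient.factorₐ B (le_sup_right : J ≤ Ideal.span {β ^ P} ⊔ J)).toLinearMap
      (Ideal.Quotient.factor_surjective le_sup_right))
  intro j
  induction j with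
  | zero => simp
  | succ j ih =>
    intro hj
    set C : Ideal T := Ideal.span {β ^ (j + 1)} ⊔ J
    set C' : Ideal T := Ideal.span {β ^ j} ⊔ J
    have hCC : C ≤ C' := sup_le_sup_right
      ((Ideal.span_singleton_le_span_singleton).2 (pow_dvd_pow β (Nat.le_succ j))) J
    set g : T →ₗ[B] T ⧸ C := (Ideal.Quotient.mkₐ B C).toLinearMap ∘ₗ Algebra.lsmul B B T (β ^ j)
    set π : (T ⧸ C) →ₗ[B] T ⧸ C' := (Ideal.Quotient.factorₐ B hCC).toLinearMap
    have hker : LinearMap.ker g ≤ (Ideal.span {β} ⊔ J').restrictScalars B := by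
      intro x hx
      have hx' : β ^ j * x ∈ C := Ideal.Quotient.eq_zero_iff_mem.1 hx
      obtain ⟨u, hu, f, hf, huf⟩ := Submodule.mem_sup.1 hx'
      obtain ⟨y, rfl⟩ := Ideal.mem_span_singleton.1 hu
      have h1 : x - β * y ∈ J' := by
        refine hcolon _ ?_
        have hfe : β ^ j * (x - β * y) = f := by rw [mul_sub, ← huf]; ring
        obtain ⟨k, rfl⟩ := Nat.exists_eq_add_of_le (show j ≤ P by omega)
        rw [pow_add, mul_right_comm, hfe]
        exact J.mul_mem_right _ hf
      show x ∈ Ideal.span {β} ⊔ J'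
      rw [show x = β * y + (x - β * y) by ring]
      exact add_mem (Submodule.mem_sup_left (Ideal.mem_span_singleton.2 ⟨y, rfl⟩))
        (Submodule.mem_sup_right h1)
    have hzero : ∀ x, π (g x) = 0 := fun x => Ideal.Quotient.eq_zero_iff_mem.2
      (Submodule.mem_sup_left (Ideal.mem_span_singleton.2 (dvd_mul_right _ _)))
    calc ((j + 1 : ℕ) : ℝ≥0∞) * lam A c (T ⧸ (Ideal.span {β} ⊔ J'))
        = lam A c (T ⧸ (Ideal.span {β} ⊔ J').restrictScalars B) +
            (j : ℝ≥0∞) * lam A c (T ⧸ (Ideal.span {β} ⊔ J')) := by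
          rw [Nat.cast_add, Nat.cast_one, add_mul, one_mul, add_comm]
          rfl
      _ ≤ lam A c (LinearMap.ker π) + lam A c (T ⧸ C') := by
          refine add_le_add ?_ (ih (by omega))
          refine (lam_quotient_le_of_ker (g.codRestrict (LinearMap.ker π) hzero) ?_)
          exact fun x hx => hker (LinearMap.mem_ker.2 (congrArg Subtype.val (LinearMap.mem_ker.1 hx)))
      _ ≤ lam A c (T ⧸ C) := lam_add_le (LinearMap.ker π).subtype π (Submodule.subtype_injective _)
          (Ideal.Quotient.factor_surjective hCC) (LinearMap.exact_subtype_ker_map π)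

end Root

end Vale.Agent.P202.Lambda
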