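import Vale.Agent.P202.Lambda.Killed

/-!
# Change of base for the normalised length

For a module of finite length over a local ring `P` mapping to `B`, the base change has normalised
length `length * κ`, `κ` the one of `B ⊗ k`, as soon as this holds for one `P ⧸ I` killing it.
No flatness is used.
-/

open scoped ENNReal TensorProduct

namespace Vale.Agent.P202.Lambda

universe u v

variable {A₀ : Type*} {B : Type v} [CommRing A₀] [CommRing B] [Algebra A₀ B] [IsNoetherianRing A₀]
variable {A : ℕ → Subalgebra A₀ B} {c : ℕ}
variable {P : Type u} [CommRing P] [IsLocalRing P] [Algebra P B]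

open IsLocalRing

/-- Base change never gains: `len * κ` is an upper bound. -/
theorem lam_tensor_le (h : IsTower A c) {M : Type*} [AddCommGroup M] [Module P M]
    (hM : IsFiniteLength P M) :
    lam A c (B ⊗[P] M) ≤
      (Module.length P M : ℝ≥0∞) * lam A c (B ⊗[P] ResidueField P) := by
  induction hM with
  | of_subsingleton =>
    rw [lam_of_subsingleton]
    exact zero_le
  | @of_simple_quotient M _ _ N hs hN ih =>
    obtain ⟨m, hm, ⟨e⟩⟩ := isSimpleModule_iff_quot_maximal.mp hs
    obtain rfl := eq_maximalIdeal hm
    have hlen : Module.length P M = Module.length P N + 1 := by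
      rw [Module.length_eq_add_of_exact N.subtype N.mkQ N.subtype_injective N.mkQ_surjective
        (LinearMap.exact_subtype_mkQ N), Module.length_eq_one P (M ⧸ N)]
    set f := N.subtype.baseChange B
    set g := N.mkQ.baseChange B
    have hfg : Function.Exact f g :=
      lTensor_exact B (LinearMap.exact_subtype_mkQ N) N.mkQ_surjective
    have hle : lam A c (B ⊗[P] M) ≤ lam A c (LinearMap.range f) + lam A c (B ⊗[P] (M ⧸ N)) :=
      lam_le_add h (LinearMap.range f).subtype g (Submodule.subtype_injective _) (by
        exact LinearMap.exact_iff.2 ((LinearMap.exact_iff.1 hfg).trans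
          (Submodule.range_subtype (LinearMap.range f)).symm))
    refine hle.trans ?_
    rw [hlen, ENat.toENNReal_add, add_mul, ENat.toENNReal_one, one_mul]
    exact add_le_add ((lam_le_of_surjective f.rangeRestrict f.surjective_rangeRestrict).trans ih)
      (lam_congr (LinearEquiv.baseChange P B (M ⧸ N) (ResidueField P)
        (e : (M ⧸ N) ≃ₗ[P] ResidueField P))).le

/-- Change of base. -/
theorem lam_tensor_eq (h : IsTower A c) {M : Type*} [AddCommGroup M] [Module P M]
    [Module.Finite P M] (hM : IsFiniteLength P M) (I : Ideal P) (hI : I ≤ Module.annihilator P M)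
    (hfin : IsFiniteLength P (P ⧸ I)) (hκ : lam A c (B ⊗[P] ResidueField P) ≠ ⊤)
    (hbig : (Module.length P (P ⧸ I) : ℝ≥0∞) * lam A c (B ⊗[P] ResidueField P) ≤
      lam A c (B ⊗[P] (P ⧸ I))) :
    lam A c (B ⊗[P] M) = (Module.length P M : ℝ≥0∞) * lam A c (B ⊗[P] ResidueField P) := by
  refine (lam_tensor_le h hM).antisymm ?_
  set κ := lam A c (B ⊗[P] ResidueField P)
  obtain ⟨r, π, hπ⟩ := Module.Finite.exists_fin' P M
  let q : (Fin r → P ⧸ I) →ₗ[P] M :=
    ∑ i, (I.liftQ (LinearMap.toSpanSingleton P M (π (Pi.single i 1))) fun a ha =>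
      Module.mem_annihilator.1 (hI ha) _) ∘ₗ LinearMap.proj i
  have hq : Function.Surjective q := fun m => by
    obtain ⟨v, rfl⟩ := hπ m
    refine ⟨fun i => Submodule.Quotient.mk (v i), ?_⟩
    conv_rhs => rw [pi_eq_sum_univ v, map_sum]
    simp only [q, LinearMap.sum_apply, LinearMap.comp_apply, LinearMap.proj_apply]
    refine Finset.sum_congr rfl fun i _ => ?_
    rw [map_smul]
    show v i • π (Pi.single i 1) = _
    congr 2
    ext j
    simp [Pi.single_apply, eq_comm]
  have hF : IsFiniteLength P (Fin r → P ⧸ I) := by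
    rw [← Module.length_ne_top_iff] at hfin ⊢
    rw [Module.length_pi_of_fintype, Finset.sum_const, nsmul_eq_mul]
    exact WithTop.mul_ne_top (ENat.natCast_ne_top _) hfin
  have hK : IsFiniteLength P (LinearMap.ker q) := hF.of_injective (Submodule.subtype_injective _)
  set f := (LinearMap.ker q).subtype.baseChange B
  set g := q.baseChange B
  have hfg : Function.Exact f g := lTensor_exact B (LinearMap.exact_subtype_ker_map q) hq
  have h1 : lam A c (B ⊗[P] (Fin r → P ⧸ I)) ≤
      (Module.length P (LinearMap.ker q) : ℝ≥0∞) * κ + lam A c (B ⊗[P] M) := by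
    refine le_trans (lam_le_add h (M' := LinearMap.range f) (LinearMap.range f).subtype g
      (Submodule.subtype_injective _) (by
        exact LinearMap.exact_iff.2 ((LinearMap.exact_iff.1 hfg).trans
          (Submodule.range_subtype (LinearMap.range f)).symm))) (add_le_add ?_ le_rfl)
    exact (lam_le_of_surjective f.rangeRestrict f.surjective_rangeRestrict).trans
      (lam_tensor_le h hK)
  have h2 : (Module.length P (Fin r → P ⧸ I) : ℝ≥0∞) * κ ≤ lam A c (B ⊗[P] (Fin r → P ⧸ I)) := by
    rw [lam_congr (TensorProduct.piRight P B B fun _ : Fin r => P ⧸ I), lam_pi h,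
      Module.length_pi_of_fintype]
    simp only [Finset.sum_const, Finset.card_univ, Fintype.card_fin, nsmul_eq_mul,
      ENat.toENNReal_mul, ENat.toENNReal_coe, mul_assoc]
    exact mul_le_mul_right hbig _
  have hlen := Module.length_eq_add_of_exact (LinearMap.ker q).subtype q
    (Submodule.subtype_injective _) hq (LinearMap.exact_subtype_ker_map q)
  have h3 := h2.trans h1
  rw [hlen, ENat.toENNReal_add, add_mul] at h3
  refine (ENNReal.add_le_add_iff_left (ENNReal.mul_ne_top ?_ hκ)).1 h3
  rw [ENat.toENNReal_ne_top]
  exact Module.length_ne_top_iff.2 hK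

end Vale.Agent.P202.Lambda
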